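import Vale.Agent.P322R13.Defs
import Vale.Agent.P322.H903.FKN

/-!
# P322: from random variables to tables
-/

open MeasureTheory ProbabilityTheory InformationTheory Set

noncomputable section

namespace Vale.Agent.P322R13

theorem kl_fin {γ : Type*} [MeasurableSpace γ] [MeasurableSingletonClass γ] [Fintype γ]
    {μ ν : Measure γ} [IsProbabilityMeasure μ] [IsProbabilityMeasure ν] (h : μ ≪ ν) :
    klDiv μ ν ≠ ⊤ ∧
      (klDiv μ ν).toReal = ∑ x, μ.real {x} * Real.log (μ.real {x} / ν.real {x}) := by
  refine ⟨klDiv_ne_top h Integrable.of_finite, ?_⟩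
  rw [toReal_klDiv_of_measure_eq h (by simp), integral_fintype Integrable.of_finite]
  refine Finset.sum_congr rfl fun x _ => ?_
  rw [smul_eq_mul]
  by_cases h0 : ν {x} = 0
  · simp [Measure.real, h h0]
  have h1 : μ.rnDeriv ν x * ν {x} = μ {x} := by
    rw [← Measure.setLIntegral_rnDeriv h {x}, lintegral_singleton]
  have h2 : (ν {x}).toReal ≠ 0 := ENNReal.toReal_ne_zero.2 ⟨h0, measure_ne_top _ _⟩
  rw [llr, Measure.real, Measure.real, ← h1, ENNReal.toReal_mul, mul_div_cancel_right₀ _ h2]

variable {Ω : Type*} [MeasurableSpace Ω] {P : Measure Ω}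

section fin

variable {α β : Type*} [MeasurableSpace α] [MeasurableSingletonClass α] [Fintype α]
  [MeasurableSpace β] [MeasurableSingletonClass β] [Fintype β] {U : Ω → α} {V : Ω → β}

omit [Fintype α] in
theorem real_map (hU : Measurable U) (a : α) : (P.map U).real {a} = P.real {ω | U ω = a} := by
  rw [map_measureReal_apply hU (measurableSet_singleton a)]
  rfl

/-- total probability -/
theorem real_sum [IsFiniteMeasure P] (hU : Measurable U) (p : α → Prop) [DecidablePred p] :
    P.real {ω | p (U ω)} = ∑ a, if p a then P.real {ω | U ω = a} else 0 := by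
  rw [← Finset.sum_filter]
  simp only [← real_map hU]
  rw [sum_measureReal_singleton, map_measureReal_apply hU (Finset.measurableSet _)]
  congr 1
  ext ω
  simp

theorem marg_fst [IsFiniteMeasure P] (hU : Measurable U) (hV : Measurable V) (a : α) :
    ∑ b, P.real {ω | U ω = a ∧ V ω = b} = P.real {ω | U ω = a} := by
  classical
  rw [real_sum (hU.prodMk hV) fun q => q.1 = a, Fintype.sum_prod_type, Finset.sum_eq_single a
    (fun a' _ e => by simp [e]) (by simp)]
  simp

theorem marg_snd [IsFiniteMeasure P] (hU : Measurable U) (hV : Measurable V) (b : β) :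
    ∑ a, P.real {ω | U ω = a ∧ V ω = b} = P.real {ω | V ω = b} := by
  simpa only [and_comm] using marg_fst (P := P) hV hU b

theorem relEnt_fin [IsProbabilityMeasure P] (hU : Measurable U) (hV : Measurable V) :
    relEnt P U V ≠ ⊤ ∧ info P U V = ∑ a, ∑ b, P.real {ω | U ω = a ∧ V ω = b} *
      Real.logb 2 (P.real {ω | U ω = a ∧ V ω = b} /
        (P.real {ω | U ω = a} * P.real {ω | V ω = b})) := by
  have hm := hU.prodMk hV
  have := Measure.isProbabilityMeasure_map (μ := P) hm.aemeasurable
  have := Measure.isProbabilityMeasure_map (μ := P) hU.aemeasurable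
  have := Measure.isProbabilityMeasure_map (μ := P) hV.aemeasurable
  have ac : (P.map fun ω => (U ω, V ω)) ≪ (P.map U).prod (P.map V) := by
    intro s hs
    rw [measure_null_iff_singleton s.to_countable] at hs ⊢
    rintro ⟨a, b⟩ hab
    have h1 := hs _ hab
    rw [← singleton_prod_singleton, Measure.prod_prod, mul_eq_zero,
      Measure.map_apply hU (measurableSet_singleton _),
      Measure.map_apply hV (measurableSet_singleton _)] at h1
    rw [Measure.map_apply hm (measurableSet_singleton _)]
    exact h1.elim (measure_mono_null fun ω e => congrArg Prod.fst e)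
      (measure_mono_null fun ω e => congrArg Prod.snd e)
  obtain ⟨h1, h2⟩ := kl_fin ac
  refine ⟨h1, ?_⟩
  rw [info, relEnt, h2, Fintype.sum_prod_type, Finset.sum_div]
  refine Finset.sum_congr rfl fun a _ => ?_
  rw [Finset.sum_div]
  refine Finset.sum_congr rfl fun b _ => ?_
  rw [real_map hm, ← singleton_prod_singleton, measureReal_prod_prod, real_map hU, real_map hV,
    Real.logb, mul_div_assoc]
  simp only [Prod.mk.injEq]

theorem info_ent [IsProbabilityMeasure P] (hU : Measurable U) (hV : Measurable V) :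
    info P U V = ent P U + ent P V - ent P fun ω => (U ω, V ω) := by
  rw [(relEnt_fin hU hV).2, ent, ent, ent, Fintype.sum_prod_type]
  simp only [Prod.mk.injEq]
  have e : ∀ a b, P.real {ω | U ω = a ∧ V ω = b} * Real.logb 2 (P.real {ω | U ω = a ∧ V ω = b} /
      (P.real {ω | U ω = a} * P.real {ω | V ω = b})) =
      P.real {ω | U ω = a ∧ V ω = b} * Real.logb 2 (P.real {ω | U ω = a ∧ V ω = b}) -
      P.real {ω | U ω = a ∧ V ω = b} * Real.logb 2 (P.real {ω | U ω = a}) -
      P.real {ω | U ω = a ∧ V ω = b} * Real.logb 2 (P.real {ω | V ω = b}) := by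
    intro a b
    by_cases h0 : P.real {ω | U ω = a ∧ V ω = b} = 0
    · simp [h0]
    have h1 : P.real {ω | U ω = a} ≠ 0 := fun e => h0 (le_antisymm
      (e ▸ measureReal_mono fun ω k => k.1) measureReal_nonneg)
    have h2 : P.real {ω | V ω = b} ≠ 0 := fun e => h0 (le_antisymm
      (e ▸ measureReal_mono fun ω k => k.2) measureReal_nonneg)
    rw [Real.logb_div h0 (mul_ne_zero h1 h2), Real.logb_mul h1 h2]
    ring
  simp only [e, Finset.sum_sub_distrib, ← Finset.sum_mul, marg_fst hU hV]
  rw [Finset.sum_comm (f := fun a b => P.real {ω | U ω = a ∧ V ω = b} *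
    Real.logb 2 (P.real {ω | V ω = b}))]
  simp only [← Finset.sum_mul, marg_snd hU hV]
  ring

end fin

theorem msc : MeasurableSingletonClass ℤˣ :=
  ⟨fun u => ⟨{(u : ℤ)}, measurableSet_singleton _, by ext v; simp [Units.ext_iff]⟩⟩

variable {n : ℕ} {ε : ℝ} {X : Ω → Fin n → ℤˣ} {Z : Fin n → Ω → ℤˣ}

theorem Channel.pair (h : Channel P ε X Z) (x z : Fin n → ℤˣ) :
    P.real {ω | X ω = x ∧ (fun i => Z i ω) = z} = P322.pairLaw n ε x z := by
  have := msc
  have := h.prob
  have hZ : Measurable fun ω i => Z i ω := measurable_pi_lambda _ h.measZ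
  have e1 := real_map (P := P) (h.measX.prodMk hZ) (x, z)
  simp only [Prod.mk.injEq] at e1
  have := fun i => Measure.isProbabilityMeasure_map (μ := P) (h.measZ i).aemeasurable
  rw [← e1, h.indepX.map_prod_eq_prod_map_map h.measX.aemeasurable hZ.aemeasurable,
    ← singleton_prod_singleton, measureReal_prod_prod, h.unif,
    h.indep.map_fun_eq_pi_map fun i => (h.measZ i).aemeasurable, P322.pairLaw]
  congr 1
  · rw [Measure.real, uniformOn_univ]
    simp
  · rw [Measure.real, ← univ_pi_singleton, Measure.pi_pi, ENNReal.toReal_prod]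
    refine Finset.prod_congr rfl fun i _ => ?_
    refine (real_map (h.measZ i) (z i)).trans ?_
    split_ifs with e
    · rw [e, h.cross]
    · have e2 : {ω | Z i ω = z i} = {ω | Z i ω = -1}ᶜ := by
        ext ω
        rcases Int.units_eq_one_or (z i) with k | k
        · rcases Int.units_eq_one_or (Z i ω) with k' | k' <;> simp [k, k']
        · exact (e k).elim
      rw [e2, ← h.cross i]
      exact probReal_compl_eq_one_sub (h.measZ i (measurableSet_singleton _))

theorem Channel.info_eq (h : Channel P ε X Z) (f : (Fin n → ℤˣ) → ℤˣ) :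
    relEnt P (fun ω => f (X ω)) (fun ω i => X ω i * Z i ω) ≠ ⊤ ∧
    info P (fun ω => f (X ω)) (fun ω i => X ω i * Z i ω) = ent P (fun ω => f (X ω)) +
      ent P (fun ω i => X ω i * Z i ω) - ent P (fun ω => (f (X ω), fun i => X ω i * Z i ω)) ∧
    info P (fun ω => f (X ω)) (fun ω i => X ω i * Z i ω) = P322.mutualInfo (P322.outLaw n ε f) := by
  have := msc
  have := h.prob
  have hZ : Measurable fun ω i => Z i ω := measurable_pi_lambda _ h.measZ
  have hm := h.measX.prodMk hZ
  have hU : Measurable fun ω => f (X ω) := (measurable_of_finite f).comp h.measX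
  have hV : Measurable fun ω i => X ω i * Z i ω :=
    (measurable_of_finite fun q : (Fin n → ℤˣ) × (Fin n → ℤˣ) => q.1 * q.2).comp hm
  refine ⟨(relEnt_fin hU hV).1, info_ent hU hV, ?_⟩
  have e : ∀ b y, P322.outLaw n ε f b y =
      P.real {ω | f (X ω) = b ∧ (fun i => X ω i * Z i ω) = y} := by
    intro b y
    refine Eq.symm ((real_sum hm fun q => f q.1 = b ∧ q.1 * q.2 = y).trans ?_)
    rw [Fintype.sum_prod_type, P322.outLaw]
    simp only [Prod.mk.injEq, h.pair]
  rw [(relEnt_fin hU hV).2, P322.mutualInfo]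
  simp only [e, marg_fst hU hV, marg_snd hU hV]

theorem exists_channel (n : ℕ) {ε : ℝ} (h0 : 0 ≤ ε) (h1 : ε ≤ 1) :
    ∃ (Ω : Type) (_ : MeasurableSpace Ω) (P : Measure Ω) (X : Ω → Fin n → ℤˣ)
      (Z : Fin n → Ω → ℤˣ), Channel P ε X Z := by
  have := msc
  let ν : Measure ℤˣ := ENNReal.ofReal ε • Measure.dirac (-1) + ENNReal.ofReal (1 - ε) • .dirac 1
  have : IsProbabilityMeasure ν := ⟨by
    simp only [ν, Measure.add_apply, Measure.smul_apply, measure_univ, smul_eq_mul, mul_one]
    rw [← ENNReal.ofReal_add h0 (sub_nonneg.2 h1)]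
    simp⟩
  let μ : Measure (Fin n → ℤˣ) := uniformOn univ
  have : IsProbabilityMeasure μ := isProbabilityMeasure_uniformOn finite_univ univ_nonempty
  have e : ∀ i, (μ.prod (Measure.pi fun _ : Fin n => ν)).map (fun ω => ω.2 i) = ν := fun i =>
    (((measurePreserving_eval (fun _ : Fin n => ν) i).comp measurePreserving_snd)).map_eq
  refine ⟨(Fin n → ℤˣ) × (Fin n → ℤˣ), inferInstance, μ.prod (Measure.pi fun _ => ν), Prod.fst,
    fun i ω => ω.2 i, inferInstance, measurable_fst, fun i => by fun_prop,
    measurePreserving_fst.map_eq, indepFun_prod measurable_id measurable_id, ?_, fun i => ?_⟩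
  · rw [iIndepFun_iff_map_fun_eq_pi_map fun i => by fun_prop]
    simp only [e]
    exact measurePreserving_snd.map_eq
  · rw [← real_map (by fun_prop), e]
    simp [ν, Measure.real, h0]

end Vale.Agent.P322R13
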