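import Mathlib

/-!
# P322: the binary symmetric channel by random variables
-/

open MeasureTheory ProbabilityTheory InformationTheory

noncomputable section

namespace Vale.Agent.P322R13

variable {Ω : Type*} [MeasurableSpace Ω]

/-- `X` is uniform on `{-1,1}^n`; the signs `Z i` are independent of `X` and of each other, and
`Z i = -1` with probability `ε`. -/
structure Channel (P : Measure Ω) {n : ℕ} (ε : ℝ) (X : Ω → Fin n → ℤˣ) (Z : Fin n → Ω → ℤˣ) :
    Prop where
  prob : IsProbabilityMeasure P
  measX : Measurable X
  measZ : ∀ i, Measurable (Z i)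
  unif : P.map X = uniformOn Set.univ
  indepX : IndepFun X (fun ω i => Z i ω) P
  indep : iIndepFun Z P
  cross : ∀ i, P.real {ω | Z i ω = -1} = ε

/-- the relative entropy (in nats) of the joint law of `(U, V)` with respect to the product of the
laws of `U` and of `V` -/
def relEnt {α β : Type*} [MeasurableSpace α] [MeasurableSpace β] (P : Measure Ω) (U : Ω → α)
    (V : Ω → β) : ENNReal :=
  klDiv (P.map fun ω => (U ω, V ω)) ((P.map U).prod (P.map V))

/-- the mutual information `I(U;V)` in bits -/
def info {α β : Type*} [MeasurableSpace α] [MeasurableSpace β] (P : Measure Ω) (U : Ω → α)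
    (V : Ω → β) : ℝ :=
  (relEnt P U V).toReal / Real.log 2

/-- the Shannon entropy `H(U)` in bits of a random variable with finitely many values -/
def ent {α : Type*} [Fintype α] (P : Measure Ω) (U : Ω → α) : ℝ :=
  -∑ a, P.real {ω | U ω = a} * Real.logb 2 (P.real {ω | U ω = a})

/-- `h₂(p) = -p log₂ p - (1 - p) log₂ (1 - p)` -/
def hTwo (p : ℝ) : ℝ := -p * Real.logb 2 p - (1 - p) * Real.logb 2 (1 - p)

end Vale.Agent.P322R13
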